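import Vale.Agent.P067.Alld.H.Main
import Vale.Agent.P067.Alld.E.Main
import Vale.Agent.P067.Alld.F.Main
import Vale.Agent.P067.Alld.G.Main
import Vale.Agent.P067.Alld.A.GamEq
import Vale.Agent.P067.Alld.Greedy.Main
import Vale.Agent.P067.Alld.Building.Main
import Vale.Agent.P067.Alld.Fill.Main
import Vale.Agent.P067.Alld.Model.Main
import Vale.Agent.P067.Alld.Descent.Main
import Vale.Agent.P067.Alld.Van.Main

/-!
P067, Q1: bounded-degree coboundary expanders exist in every dimension.
-/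

namespace Vale.Agent.Results.P067.BoundedDegreeExpanders

open Vale.Agent.P067 Vale.Agent.P067.Alld

theorem result : ∀ d : ℕ, 1 ≤ d → ∃ (D : ℕ) (ε : ℝ), 0 < ε ∧ ∀ N : ℕ,
    ∃ (V : Type) (_ : Fintype V) (_ : DecidableEq V) (F : Finset (Finset V)),
      IsPure d F ∧ DegreeLE D F ∧ N ≤ Fintype.card V ∧
      (∀ S : Finset V, (∀ t ∈ F, t ⊆ S ∨ Disjoint t S) → S = ∅ ∨ S = Finset.univ) ∧
      IsCoboundaryExpander d ε F :=
  main_of_modules G.cosetGlobal RankTwo.rankTwo LinkE.linkExpands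
    (Van.vanishStmt (Bld.Descent.deltaAcyclic (Model.modelStmt gamEqStmt)
      Building.building_acyclic Greedy.greedyStmt Bld.fillStmt))

end Vale.Agent.Results.P067.BoundedDegreeExpanders
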