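import Vale.Agent.P067.TopBetti

/-!
P067: the top cohomology and the Euler characteristic of bounded-degree coboundary expanders are
linear in the number of vertices.
-/

namespace Vale.Agent.Results.P067.LinearTopBetti

open Finset Vale.Agent.P067

theorem result (d : ℕ) (hd : 1 ≤ d) (D : ℕ) (ε : ℝ) (hε : 0 < ε) :
    ∃ A : ℕ, ∀ (V : Type) [Fintype V] [DecidableEq V] (F : Finset (Finset V)),
      IsPure d F → DegreeLE D F → IsCoboundaryExpander d ε F →
        Fintype.card V ≤ A * (topBetti d F + 1) ∧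
          (topBetti d F : ℤ) =
            ∑ j ∈ range (d + 2), (-1) ^ j * ((faces F (d + 1 - j)).card : ℤ) := by
  refine ⟨1 + D * 2 ^ (d + 1) *
    ((⌈(2 : ℝ) ^ (d + 1) * D / ε⌉₊ + 1) * (1 + D * 2 ^ (d + 1))) ^ (d + 1), ?_⟩
  intro V _ _ F hF hD hX
  refine ⟨(card_le_topBetti hF hD hε hX hd).trans ?_, topBetti_euler hF hD hε hX⟩
  rw [add_mul 1, one_mul, ← mul_assoc]
  exact Nat.add_le_add_right (Nat.le_add_left _ _) _

end Vale.Agent.Results.P067.LinearTopBetti
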